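import Vale.Agent.P281.H737.Gen.Crit

/-! P281, project T-V, block V13a (helper737): the image of the exceptional set of a proper
modification is small of codimension two. -/

open Set Filter Metric Vale.Agent.P281 Vale.Agent.P281.J Vale.Agent.P281.H713
open Vale.Agent.P281.H64 (Cm)
open Vale.Agent.P281.H64.Gen
open Vale.Agent.P281.H150.Gen
open scoped Topology ContDiff Manifold

noncomputable section

namespace Vale.Agent.P281.H737.Gen

section

variable {E : Type} [NormedAddCommGroup E] [NormedSpace ℂ E]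
  {X X₁ : Type} [TopologicalSpace X] [ChartedSpace E X] [IsManifold 𝓘(ℂ, E) ω X]
  [TopologicalSpace X₁] [ChartedSpace E X₁] [IsManifold 𝓘(ℂ, E) ω X₁]

/-- Bijectivity of the derivative does not see the charts. -/
theorem bij_iff {x₀ : X₁} {y₀ : X} {u : X₁ → X} {v : E} (hv : v ∈ (chartAt E x₀).target)
    (hu : ContMDiffAt 𝓘(ℂ, E) 𝓘(ℂ, E) ω u ((chartAt E x₀).symm v))
    (huv : u ((chartAt E x₀).symm v) ∈ (chartAt E y₀).source) :
    Function.Bijective (fderiv ℂ (fun v => chartAt E y₀ (u ((chartAt E x₀).symm v))) v) ↔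
      Function.Bijective (mfderiv 𝓘(ℂ, E) 𝓘(ℂ, E) u ((chartAt E x₀).symm v)) := by
  have hn : (ω : WithTop ℕ∞) ≠ 0 := by simp
  set φ := chartAt E x₀ with hφ
  set ψ := chartAt E y₀ with hψ
  have h1 : ContMDiffAt 𝓘(ℂ, E) 𝓘(ℂ, E) ω φ.symm v :=
    contMDiffAt_symm_of_mem_maximalAtlas (IsManifold.chart_mem_maximalAtlas x₀) hv
  have h2 : ContMDiffAt 𝓘(ℂ, E) 𝓘(ℂ, E) ω ψ (u (φ.symm v)) :=
    contMDiffAt_of_mem_maximalAtlas (IsManifold.chart_mem_maximalAtlas y₀) huv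
  have h3 : mfderiv 𝓘(ℂ, E) 𝓘(ℂ, E) (fun v => u (φ.symm v)) v =
      (mfderiv 𝓘(ℂ, E) 𝓘(ℂ, E) u (φ.symm v)).comp (mfderiv 𝓘(ℂ, E) 𝓘(ℂ, E) φ.symm v) :=
    mfderiv_comp v (hu.mdifferentiableAt hn) (h1.mdifferentiableAt hn)
  have h4 : ContMDiffAt 𝓘(ℂ, E) 𝓘(ℂ, E) ω (fun v => u (φ.symm v)) v := ContMDiffAt.comp v hu h1
  have h5 : mfderiv 𝓘(ℂ, E) 𝓘(ℂ, E) (fun v => ψ (u (φ.symm v))) v =
      (mfderiv 𝓘(ℂ, E) 𝓘(ℂ, E) ψ (u (φ.symm v))).comp
        (mfderiv 𝓘(ℂ, E) 𝓘(ℂ, E) (fun v => u (φ.symm v)) v) :=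
    mfderiv_comp v (h2.mdifferentiableAt hn) (h4.mdifferentiableAt hn)
  rw [← mfderiv_eq_fderiv, h5, h3]
  have hb1 : Function.Bijective (mfderiv 𝓘(ℂ, E) 𝓘(ℂ, E) ψ (u (φ.symm v))) :=
    ((mdifferentiable_chart (I := 𝓘(ℂ, E)) y₀).mfderiv huv).bijective
  have hb2 : Function.Bijective (mfderiv 𝓘(ℂ, E) 𝓘(ℂ, E) φ.symm v) :=
    ((mdifferentiable_chart (I := 𝓘(ℂ, E)) x₀).symm.mfderiv (by simpa using hv)).bijective
  show Function.Bijective ((mfderiv 𝓘(ℂ, E) 𝓘(ℂ, E) ψ (u (φ.symm v))) ∘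
    ((mfderiv 𝓘(ℂ, E) 𝓘(ℂ, E) u (φ.symm v)) ∘ (mfderiv 𝓘(ℂ, E) 𝓘(ℂ, E) φ.symm v))) ↔ _
  rw [Function.Bijective.of_comp_iff' hb1, Function.Bijective.of_comp_iff _ hb2]

end

/-- **V13a** -/
theorem exc : ExcStmt := by
  intro n X X₁ _ _ _ _ _ u hu
  obtain ⟨⟨hTX, hTX₁, hMX, hMX₁⟩, hsm, hprop, U, hUo, hUd, hUd', hUu⟩ := hu
  have hcomp : CompactSpace X₁ := ⟨by
    have := hprop.isCompact_preimage (isCompact_univ (X := X))
    simpa using this⟩
  have hn : (ω : WithTop ℕ∞) ≠ 0 := by simp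
  -- the local situation at a point `x`
  have hloc : ∀ x : X₁, ∃ N ∈ 𝓝 x, SThin2 (Cm n) (u '' (excSet (Cm n) u ∩ N)) ∧
      (x ∉ excSet (Cm n) u → ∀ᶠ x' in 𝓝 x, x' ∉ excSet (Cm n) u) := by
    intro x
    set φ := chartAt (Cm n) x with hφx
    set ψ := chartAt (Cm n) (u x) with hψy
    set W : Set (Cm n) := φ.target ∩ φ.symm ⁻¹' (u ⁻¹' ψ.source) with hW
    have hWo : IsOpen W := by
      refine ContinuousOn.isOpen_inter_preimage φ.continuousOn_symm φ.open_target ?_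
      exact ψ.open_source.preimage hsm.continuous
    set F : Cm n → Cm n := fun v => ψ (u (φ.symm v)) with hF
    have hFm : ∀ v ∈ W, ContMDiffAt 𝓘(ℂ, Cm n) 𝓘(ℂ, Cm n) ω (fun v => u (φ.symm v)) v :=
      fun v hv => ContMDiffAt.comp v (hsm _) (holAt_symm hv.1)
    have hFa : ∀ v ∈ W, AnalyticAt ℂ F v := by
      intro v hv
      have h1 : ContMDiffAt 𝓘(ℂ, Cm n) 𝓘(ℂ, Cm n) ω F v :=
        ContMDiffAt.comp v (holAt_chart hv.2) (hFm v hv)
      exact (contMDiffAt_iff_contDiffAt.1 h1).analyticAt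
    have hxW : φ x ∈ W := by
      refine ⟨φ.map_source (mem_chart_source _ _), ?_⟩
      show u (φ.symm (φ x)) ∈ ψ.source
      rw [φ.left_inv (mem_chart_source _ _)]
      exact mem_chart_source _ _
    have hbij : ∀ v ∈ W, (Function.Bijective (fderiv ℂ F v) ↔ φ.symm v ∉ excSet (Cm n) u) := by
      intro v hv
      have h1 := bij_iff (x₀ := x) (y₀ := u x) (u := u) (v := v) hv.1 (hsm _) hv.2
      rw [h1]
      simp only [excSet, mem_ofPred_eq, not_not]
      rfl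
    have hbs : ∀ v, (Function.Bijective (fderiv ℂ F v) ↔ Function.Surjective (fderiv ℂ F v)) := by
      intro v
      refine ⟨fun h => h.2, fun h => ⟨?_, h⟩⟩
      exact (LinearMap.injective_iff_surjective_of_finrank_eq_finrank
        (f := (fderiv ℂ F v : Cm n →ₗ[ℂ] Cm n)) rfl).2 h
    set A : Set (Cm n) := {v | ¬ Function.Bijective (fderiv ℂ F v)} with hA
    have hAn : AnIn W A := by
      have h1 := anIn_crit hWo hFa
      have h2 : {z | ¬ Function.Surjective (fderiv ℂ F z)} = A := by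
        ext v
        simp only [hA, mem_ofPred_eq, hbs]
      rwa [h2] at h1
    have huF : ∀ v ∈ W, u (φ.symm v) = ψ.symm (F v) := fun v hv => (ψ.left_inv hv.2).symm
    have hrk : RkLe W A F := by
      refine rkLe_of_inj hWo hFa ?_ ?_
      · intro z₁ hz₁ z₂ hz₂ hne hFz hb1 hb2
        obtain ⟨N₁, N₂, hN₁, hN₂, hz₁N, hz₂N, hdis⟩ := t2_separation hne
        have hop : ∀ z ∈ W, Function.Bijective (fderiv ℂ F z) → ∀ N, IsOpen N → z ∈ N →
            F '' (N ∩ W) ∈ 𝓝 (F z) := by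
          intro z hz hb N hN hzN
          have : CompleteSpace (Cm n) := FiniteDimensional.complete ℂ _
          have hstr : HasStrictFDerivAt F (fderiv ℂ F z) z :=
            (hFa z hz).contDiffAt.hasStrictFDerivAt hn
          have hsurj : LinearMap.range (fderiv ℂ F z : Cm n →ₗ[ℂ] Cm n) = ⊤ :=
            LinearMap.range_eq_top.2 hb.2
          have hmap := hstr.map_nhds_eq_of_surj hsurj
          rw [← hmap]
          exact Filter.image_mem_map (inter_mem (hN.mem_nhds hzN) (hWo.mem_nhds hz))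
        have h3 := hop z₁ hz₁ hb1 N₁ hN₁ hz₁N
        have h4 := hop z₂ hz₂ hb2 N₂ hN₂ hz₂N
        rw [← hFz] at h4
        -- the corresponding neighbourhood of `u (φ.symm z₁)`
        have hψc : ContinuousAt ψ (u (φ.symm z₁)) := ψ.continuousAt hz₁.2
        have h5 : ∀ᶠ y in 𝓝 (u (φ.symm z₁)), ψ y ∈ F '' (N₁ ∩ W) ∩ F '' (N₂ ∩ W) :=
          hψc.eventually (inter_mem h3 h4)
        have h6 : ∀ᶠ y in 𝓝 (u (φ.symm z₁)), y ∈ ψ.source := ψ.open_source.eventually_mem hz₁.2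
        obtain ⟨y, hyU, ⟨⟨v₁, hv₁, hv₁y⟩, ⟨v₂, hv₂, hv₂y⟩⟩, hys⟩ :=
          (mem_closure_iff_frequently.1 (hUd (u (φ.symm z₁)))).and_eventually (h5.and h6) |>.exists
        have h7 : u (φ.symm v₁) = y := by rw [huF v₁ hv₁.2, hv₁y, ψ.left_inv hys]
        have h8 : u (φ.symm v₂) = y := by rw [huF v₂ hv₂.2, hv₂y, ψ.left_inv hys]
        have h9 := (hUu y hyU).unique h7 h8
        have h10 : v₁ = v₂ := φ.symm.injOn (by simpa using hv₁.2.1) (by simpa using hv₂.2.1) h9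
        exact (Set.disjoint_left.1 hdis) hv₁.1 (h10 ▸ hv₂.1)
      · intro N hN hNn hNW
        have hNo : IsOpen (φ.symm '' N) :=
          φ.isOpen_image_symm_of_subset_target hN (fun v hv => (hNW hv).1)
        obtain ⟨x', hx'U, v, hv, rfl⟩ := hUd'.inter_open_nonempty _ hNo (hNn.image _) |>.imp
          fun x' h => (⟨h.2, h.1⟩ : x' ∈ u ⁻¹' U ∧ x' ∈ φ.symm '' N)
        refine ⟨v, hv, fun z' hz' hFz => ?_⟩
        have h7 : u (φ.symm z') = u (φ.symm v) := by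
          rw [huF z' hz', huF v (hNW hv), hFz]
        have h9 := (hUu _ hx'U).unique h7 rfl
        exact φ.symm.injOn (by simpa using hz'.1) (by simpa using (hNW hv).1) h9
    have hS := core2 _ (Cm n) rfl W A F hWo hFa hAn hrk
    obtain ⟨H, hH, hcov⟩ := hS
    have hyt : ψ (u x) ∈ ψ.target := ψ.map_source (mem_chart_source _ _)
    obtain ⟨ρ, hρ, hρt⟩ := Metric.nhds_basis_closedBall.mem_iff.1 (ψ.open_target.mem_nhds hyt)
    have hu1 : ∀ᶠ x' in 𝓝 x, u x' ∈ ψ.source :=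
      hsm.continuous.continuousAt.eventually (ψ.open_source.eventually_mem (mem_chart_source _ _))
    have hφ1 : ∀ᶠ x' in 𝓝 x, x' ∈ φ.source := φ.open_source.eventually_mem (mem_chart_source _ _)
    refine ⟨{x' | x' ∈ φ.source ∧ u x' ∈ ψ.source ∧ ψ (u x') ∈ closedBall (ψ (u x)) ρ}, ?_, ?_, ?_⟩
    · have h2 : ContinuousAt (fun x' => ψ (u x')) x :=
        ContinuousAt.comp (g := ψ) (ψ.continuousAt (mem_chart_source _ _))
          hsm.continuous.continuousAt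
      exact hφ1.and (hu1.and (h2.eventually (closedBall_mem_nhds _ hρ)))
    · refine ⟨fun k => ψ.symm '' (H k ∩ closedBall (ψ (u x)) ρ), fun k =>
        thin2_chart (u x) (isCompact_closedBall _ _) hρt (hH k), ?_⟩
      rintro _ ⟨x', ⟨hx'A, hx'1, hx'2, hx'3⟩, rfl⟩
      have h1 : φ.symm (φ x') = x' := φ.left_inv hx'1
      have h3 : φ x' ∈ W := ⟨φ.map_source hx'1, by
        show u (φ.symm (φ x')) ∈ ψ.source
        rw [h1]; exact hx'2⟩
      have h2 : ψ (u x') ∈ F '' (A ∩ W) := by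
        refine ⟨φ x', ⟨?_, h3⟩, ?_⟩
        · show ¬ Function.Bijective (fderiv ℂ F (φ x'))
          rw [hbij _ h3, h1, not_not]
          exact hx'A
        · show ψ (u (φ.symm (φ x'))) = ψ (u x')
          rw [h1]
      obtain ⟨k, hk⟩ := mem_iUnion.1 (hcov h2)
      exact mem_iUnion.2 ⟨k, ψ (u x'), ⟨hk, hx'3⟩, ψ.left_inv hx'2⟩
    · intro hx
      have h1 : φ.symm (φ x) = x := φ.left_inv (mem_chart_source _ _)
      have h2 : Function.Surjective (fderiv ℂ F (φ x)) := by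
        rw [← hbs, hbij _ hxW, h1]; exact hx
      have h3 : ContinuousAt (fun z => fderiv ℂ F z) (φ x) := by
        have : CompleteSpace (Cm n) := FiniteDimensional.complete ℂ _
        exact (hFa _ hxW).fderiv.continuousAt
      have h4 : ∀ᶠ z in 𝓝 (φ x), Function.Surjective (fderiv ℂ F z) :=
        h3.eventually (eventually_surj h2)
      have h5 : ContinuousAt φ x := φ.continuousAt (mem_chart_source _ _)
      filter_upwards [h5.eventually (h4.and (hWo.eventually_mem hxW)), hφ1] with x' hx' hx's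
      have h6 := (hbij _ hx'.2).1 ((hbs _).2 hx'.1)
      rwa [φ.left_inv hx's] at h6
  choose N hN hS hc using hloc
  have hclosed : IsClosed (excSet (Cm n) u) := by
    rw [← isOpen_compl_iff, isOpen_iff_eventually]
    intro x hx
    exact hc x hx
  refine ⟨(hclosed.isCompact.image hsm.continuous).isClosed, ?_⟩
  show SThin2 (Cm n) (u '' excSet (Cm n) u)
  obtain ⟨t, ht⟩ := CompactSpace.elim_nhds_subcover N hN
  refine (SThin2.iUnion (S := fun x : t => u '' (excSet (Cm n) u ∩ N x)) fun x => hS x).mono ?_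
  rintro _ ⟨x, hx, rfl⟩
  have h1 : x ∈ ⋃ y ∈ t, N y := by rw [ht]; trivial
  obtain ⟨y, hy, hxy⟩ := mem_iUnion₂.1 h1
  exact mem_iUnion.2 ⟨⟨y, hy⟩, x, ⟨hx, hxy⟩, rfl⟩

end Vale.Agent.P281.H737.Gen
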