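import Vale.Agent.P281.H737.Gen.Thin2

/-! P281, block V13a (helper737): images of analytic sets on which the rank is at most `p - 2`. -/

open Set Filter Metric Vale.Agent.P281 Vale.Agent.P281.J Vale.Agent.P281.H713
open Vale.Agent.P281.H64 (Cm)
open Vale.Agent.P281.H150.Gen
open scoped Topology ContDiff Manifold

noncomputable section

namespace Vale.Agent.P281.H737.Gen

/-- The rank of `F|A` is at most `p - 2`. -/
def RkLe {V : Type} [NormedAddCommGroup V] [NormedSpace ℂ V] {p : ℕ} (W A : Set V)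
    (F : V → Cm p) : Prop :=
  ∀ (V' : Type) [NormedAddCommGroup V'] [NormedSpace ℂ V'] [FiniteDimensional ℂ V']
    (W' : Set V') (φ : V' → V), IsOpen W' → (∀ x ∈ W', AnalyticAt ℂ φ x ∧ φ x ∈ A ∩ W) →
    ∀ x ∈ W', Module.finrank ℂ
      (LinearMap.range (fderiv ℂ (fun v => F (φ v)) x : V' →ₗ[ℂ] Cm p)) + 2 ≤ p

theorem RkLe.comp {V V₁ : Type} [NormedAddCommGroup V] [NormedSpace ℂ V] [NormedAddCommGroup V₁]
    [NormedSpace ℂ V₁] [FiniteDimensional ℂ V₁] {p : ℕ} {W A : Set V} {F : V → Cm p}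
    (h : RkLe W A F) {W₁ : Set V₁} {ψ : V₁ → V} (hψ : ∀ k ∈ W₁, AnalyticAt ℂ ψ k ∧ ψ k ∈ W) :
    RkLe W₁ (ψ ⁻¹' A) (fun v => F (ψ v)) := by
  intro V' _ _ _ W' φ hW' hφ x hx
  exact h V' W' (fun v => ψ (φ v)) hW' (fun y hy =>
    ⟨AnalyticAt.fun_comp (g := ψ) (f := φ) (hψ _ (hφ y hy).2.2).1 (hφ y hy).1,
      (hφ y hy).2.1, (hψ _ (hφ y hy).2.2).2⟩) x hx

/-- If a minor of `L` is not zero, then `π ∘ L` is surjective. -/
theorem surj_of_det {V : Type} [NormedAddCommGroup V] [NormedSpace ℂ V] {r : ℕ}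
    (L : V →L[ℂ] Cm r) (v : Fin r → V) (hdet : Matrix.det (Matrix.of fun i j => L (v j) i) ≠ 0) :
    Function.Surjective L := by
  intro y
  set M : Matrix (Fin r) (Fin r) ℂ := Matrix.of fun i j => L (v j) i with hM
  have hu : IsUnit M.det := isUnit_iff_ne_zero.2 hdet
  have h4 : M.mulVec (M⁻¹.mulVec y) = y := by
    rw [Matrix.mulVec_mulVec, Matrix.mul_nonsing_inv _ hu, Matrix.one_mulVec]
  refine ⟨∑ j, (M⁻¹.mulVec y) j • v j, ?_⟩
  rw [map_sum]
  conv_rhs => rw [← h4]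
  funext i
  simp only [map_smul, Finset.sum_apply, Pi.smul_apply, smul_eq_mul, Matrix.mulVec,
    dotProduct, hM, Matrix.of_apply]
  refine Finset.sum_congr rfl fun j _ => ?_
  ring

theorem analyticAt_det {V : Type} [NormedAddCommGroup V] [NormedSpace ℂ V]
    [FiniteDimensional ℂ V] {r : ℕ} {F : V → Cm r} {w : V} (hF : AnalyticAt ℂ F w)
    (v : Fin r → V) :
    AnalyticAt ℂ (fun w => Matrix.det (Matrix.of fun i j => fderiv ℂ F w (v j) i)) w := by
  have : CompleteSpace V := FiniteDimensional.complete ℂ V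
  have h1 : ∀ i j, AnalyticAt ℂ (fun w => fderiv ℂ F w (v j) i) w := by
    intro i j
    have h2 := hF.fderiv
    have h3 : AnalyticAt ℂ (fun w => fderiv ℂ F w (v j)) w :=
      ((ContinuousLinearMap.apply ℂ (Cm r) (v j)).analyticAt _).fun_comp h2
    exact ((ContinuousLinearMap.proj (R := ℂ) (φ := fun _ : Fin r => ℂ) i).analyticAt _).fun_comp
      h3
  simp only [Matrix.det_apply', Matrix.of_apply]
  refine Finset.analyticAt_fun_sum _ fun σ _ => ?_
  refine AnalyticAt.mul analyticAt_const ?_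
  exact Finset.analyticAt_fun_prod _ fun i _ => h1 _ _

/-- Case 1: `A` is locally contained in a hypersurface. -/
theorem case1 {p m : ℕ} (ihm : ∀ m' < m, ∀ (V : Type) [NormedAddCommGroup V] [NormedSpace ℂ V]
      [FiniteDimensional ℂ V], Module.finrank ℂ V = m' → ∀ (W A : Set V) (F : V → Cm p), IsOpen W →
      (∀ z ∈ W, AnalyticAt ℂ F z) → AnIn W A → RkLe W A F → SThin2 (Cm p) (F '' (A ∩ W)))
    (V : Type) [NormedAddCommGroup V] [NormedSpace ℂ V] [FiniteDimensional ℂ V]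
    (hm : Module.finrank ℂ V = m) (W A : Set V) (F : V → Cm p) (hW : IsOpen W)
    (hF : ∀ z ∈ W, AnalyticAt ℂ F z) (hA : AnIn W A) (hN : RkLe W A F) (v : V) (hv : v ∈ W)
    (h : V → ℂ) (hh : AnalyticAt ℂ h v) (hi : ¬ ∀ᶠ z in 𝓝 v, h z = 0)
    (hhA : ∀ᶠ z in 𝓝 v, z ∈ A → h z = 0) : ∃ N ∈ 𝓝 v, SThin2 (Cm p) (F '' (A ∩ W ∩ N)) := by
  have : CompleteSpace V := FiniteDimensional.complete ℂ V
  have : ProperSpace V := FiniteDimensional.proper ℂ V
  have : SecondCountableTopology V := secondCountable_of_proper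
  obtain ⟨e, he⟩ := exists_order hh hi
  obtain ⟨N, hN1, hNo, hvN⟩ := _root_.eventually_nhds_iff.1
    (he.and ((hhA.and hh.eventually_analyticAt).and (hW.eventually_mem hv)))
  refine ⟨N, hNo.mem_nhds hvN, ?_⟩
  set T : ℕ → Set V := fun k => {z | z ∈ A ∩ W ∩ N ∧ D h e k z = 0 ∧
    fderiv ℂ (D h e k) z ≠ 0} with hT
  have hsub : F '' (A ∩ W ∩ N) ⊆ ⋃ k, F '' (T k) := by
    rintro _ ⟨z, hz, rfl⟩
    have hz0 : h z = 0 := (hN1 z hz.2).2.1.1 hz.1.1
    obtain ⟨k, hk⟩ := (hN1 z hz.2).1 hz0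
    exact mem_iUnion.2 ⟨k, z, ⟨hz, hk⟩, rfl⟩
  refine (SThin2.iUnion (fun k => ?_)).mono hsub
  refine SThin2.image_of_local fun z hz => ?_
  have hzA : AnalyticAt ℂ (D h e k) z := D_analytic (hN1 z hz.1.2).2.1.2 k
  obtain ⟨W₁, ψ, hW₁, hψ, hcov⟩ := exists_param hzA hz.2.1 hz.2.2 (hW.mem_nhds hz.1.1.2)
  obtain ⟨N₁, hN₁, hN₁o, hzN₁⟩ := _root_.eventually_nhds_iff.1 hcov
  refine ⟨N₁, hN₁o.mem_nhds hzN₁, ?_⟩
  have hfin : Module.finrank ℂ (LinearMap.ker (fderiv ℂ (D h e k) z : V →ₗ[ℂ] ℂ)) < m := by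
    have h1 := LinearMap.finrank_range_add_finrank_ker
      (fderiv ℂ (D h e k) z : V →ₗ[ℂ] ℂ)
    have h2 : 0 < Module.finrank ℂ
        (LinearMap.range (fderiv ℂ (D h e k) z : V →ₗ[ℂ] ℂ)) := by
      rw [Module.finrank_pos_iff_exists_ne_zero]
      obtain ⟨v', hv'⟩ : ∃ v', fderiv ℂ (D h e k) z v' ≠ 0 := by
        by_contra hcon
        push Not at hcon
        exact hz.2.2 (ContinuousLinearMap.ext hcon)
      refine ⟨⟨_, LinearMap.mem_range_self _ v'⟩, ?_⟩
      intro hcon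
      exact hv' (congrArg Subtype.val hcon)
    omega
  have h3 := ihm _ hfin _ rfl W₁ (ψ ⁻¹' A) (fun x => F (ψ x)) hW₁
    (fun x hx => AnalyticAt.fun_comp (g := F) (f := ψ) (hF _ (hψ x hx).2) (hψ x hx).1)
    (hA.comp hW₁ hψ) (hN.comp hψ)
  refine h3.mono ?_
  rintro _ ⟨x, ⟨hxT, hxN⟩, rfl⟩
  obtain ⟨x₁, hx₁, rfl⟩ := hN₁ x hxN hxT.2.1
  exact ⟨x₁, ⟨hxT.1.1.1, hx₁⟩, rfl⟩

/-- The core lemma. -/
theorem core2 {p : ℕ} : ∀ (m : ℕ) (V : Type) [NormedAddCommGroup V] [NormedSpace ℂ V]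
    [FiniteDimensional ℂ V], Module.finrank ℂ V = m → ∀ (W A : Set V) (F : V → Cm p), IsOpen W →
    (∀ z ∈ W, AnalyticAt ℂ F z) → AnIn W A → RkLe W A F → SThin2 (Cm p) (F '' (A ∩ W)) := by
  intro m
  induction m using Nat.strong_induction_on with
  | _ m ihm =>
  intro V _ _ _ hm W A F hW hF hA hN
  have : CompleteSpace V := FiniteDimensional.complete ℂ V
  have : ProperSpace V := FiniteDimensional.proper ℂ V
  have : SecondCountableTopology V := secondCountable_of_proper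
  refine SThin2.image_of_local fun v hv => ?_
  obtain ⟨U, ι, h, hU, hvU, hh, hAU⟩ := hA v hv.2
  by_cases hcase : ∃ i, ¬ ∀ᶠ z in 𝓝 v, h i z = 0
  · -- Case 1: `A` is locally contained in a hypersurface
    obtain ⟨i, hi⟩ := hcase
    refine case1 ihm V hm W A F hW hF hA hN v hv.2 (h i) (hh i v hvU) hi ?_
    filter_upwards [hU.mem_nhds hvU] with z hz hzA
    exact (hAU z hz).1 hzA i
  · -- Case 2: `A` is a neighbourhood of `v`
    push Not at hcase
    obtain ⟨ρ, hρ, hB⟩ := Metric.mem_nhds_iff.1 (inter_mem (hU.mem_nhds hvU) (hW.mem_nhds hv.2))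
    have hBA : ∀ z ∈ ball v ρ, z ∈ A ∩ W := by
      intro z hz
      refine ⟨(hAU z (hB hz).1).2 fun i => ?_, (hB hz).2⟩
      have h1 : AnalyticOnNhd ℂ (h i) (ball v ρ) := fun w hw => hh i w (hB hw).1
      exact h1.eqOn_zero_of_preconnected_of_eventuallyEq_zero (convex_ball v ρ).isPreconnected
        (mem_ball_self hρ) (hcase i) hz
    have hns : ∀ z ∈ ball v ρ, Module.finrank ℂ
        (LinearMap.range (fderiv ℂ F z : V →ₗ[ℂ] Cm p)) + 2 ≤ p := fun z hz =>
      hN V (ball v ρ) (fun x => x) isOpen_ball (fun x hx => ⟨analyticAt_id, hBA x hx⟩) z hz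
    refine ⟨ball v ρ, ball_mem_nhds v hρ, ?_⟩
    have hFa : ∀ z ∈ ball v ρ, AnalyticAt ℂ F z := fun z hz => hF z (hB hz).2
    -- a point of maximal rank
    obtain ⟨z₀, hz₀, hmax⟩ : ∃ z₀ ∈ ball v ρ, ∀ z ∈ ball v ρ,
        Module.finrank ℂ (LinearMap.range (fderiv ℂ F z : V →ₗ[ℂ] Cm p)) ≤
        Module.finrank ℂ (LinearMap.range (fderiv ℂ F z₀ : V →ₗ[ℂ] Cm p)) := by
      have hne : ((fun z => p - Module.finrank ℂ
          (LinearMap.range (fderiv ℂ F z : V →ₗ[ℂ] Cm p))) '' ball v ρ).Nonempty :=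
        ⟨_, v, mem_ball_self hρ, rfl⟩
      obtain ⟨z₀, hz₀, hz₀'⟩ := Nat.sInf_mem hne
      refine ⟨z₀, hz₀, fun z hz => ?_⟩
      have h1 := Nat.sInf_le (show (p - Module.finrank ℂ
          (LinearMap.range (fderiv ℂ F z : V →ₗ[ℂ] Cm p))) ∈ ((fun z => p - Module.finrank ℂ
          (LinearMap.range (fderiv ℂ F z : V →ₗ[ℂ] Cm p))) '' ball v ρ) from ⟨z, hz, rfl⟩)
      rw [← hz₀'] at h1
      have h2 := hns z hz
      have h3 := hns z₀ hz₀
      simp only at h1
      omega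
    set r := Module.finrank ℂ (LinearMap.range (fderiv ℂ F z₀ : V →ₗ[ℂ] Cm p)) with hr
    have hrp : r + 2 ≤ p := hns z₀ hz₀
    obtain ⟨π, v₀, hπv⟩ : ∃ (π : Cm p →L[ℂ] Cm r) (v₀ : Fin r → V),
        ∀ j, π (fderiv ℂ F z₀ (v₀ j)) = Pi.single j 1 := by
      let b : Module.Basis (Fin r) ℂ (LinearMap.range (fderiv ℂ F z₀ : V →ₗ[ℂ] Cm p)) :=
        Module.finBasisOfFinrankEq ℂ _ hr.symm
      obtain ⟨π₁, hπ₁⟩ := LinearMap.exists_extend b.equivFun.toLinearMap
      choose v₀ hv₀ using fun j => LinearMap.mem_range.1 (b j).2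
      refine ⟨LinearMap.toContinuousLinearMap π₁, v₀, fun j => ?_⟩
      have h1 : fderiv ℂ F z₀ (v₀ j) = (b j : Cm p) := hv₀ j
      rw [h1]
      show π₁ ((LinearMap.range (fderiv ℂ F z₀ : V →ₗ[ℂ] Cm p)).subtype (b j)) = _
      rw [← LinearMap.comp_apply, hπ₁]
      funext i
      simp [Pi.single_apply, eq_comm]
    set F' : V → Cm r := fun z => π (F z) with hF'
    have hF'a : ∀ z ∈ ball v ρ, AnalyticAt ℂ F' z := fun z hz =>
      (π.analyticAt _).fun_comp (hFa z hz)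
    have hF'd : ∀ z ∈ ball v ρ, fderiv ℂ F' z = π.comp (fderiv ℂ F z) := fun z hz =>
      (π.hasFDerivAt.comp z (hFa z hz).differentiableAt.hasFDerivAt).fderiv
    set δ : V → ℂ := fun w => Matrix.det (Matrix.of fun i j => fderiv ℂ F' w (v₀ j) i) with hδ
    have hδa : ∀ z ∈ ball v ρ, AnalyticAt ℂ δ z := fun z hz => analyticAt_det (hF'a z hz) v₀
    have hδ0 : δ z₀ ≠ 0 := by
      have h5 : (Matrix.of fun i j => fderiv ℂ F' z₀ (v₀ j) i) =
          (1 : Matrix (Fin r) (Fin r) ℂ) := by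
        ext i j
        rw [Matrix.of_apply, hF'd z₀ hz₀, ContinuousLinearMap.comp_apply, hπv, Matrix.one_apply,
          Pi.single_apply]
      rw [hδ]
      simp only [h5, Matrix.det_one]
      exact one_ne_zero
    have hδs : ∀ z, δ z ≠ 0 → Function.Surjective (fderiv ℂ F' z) := fun z hz =>
      surj_of_det _ v₀ hz
    set A' : Set V := {z | δ z = 0} with hA'
    have hA'an : AnIn (ball v ρ) A' := by
      intro z hz
      refine ⟨ball v ρ, Unit, fun _ => δ, isOpen_ball, hz, fun _ w hw => hδa w hw, ?_⟩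
      intro w hw
      exact ⟨fun h _ => h, fun h => h ()⟩
    have hrk : RkLe (ball v ρ) A' F := by
      intro V' _ _ _ W' φ hW' hφ x hx
      have h2 : fderiv ℂ (fun v => F (φ v)) x = (fderiv ℂ F (φ x)).comp (fderiv ℂ φ x) :=
        (((hFa _ (hφ x hx).2.2).differentiableAt.hasFDerivAt).comp x
          (hφ x hx).1.differentiableAt.hasFDerivAt).fderiv
      have h3 := hns _ (hφ x hx).2.2
      have h4 : Module.finrank ℂ
          (LinearMap.range (fderiv ℂ (fun v => F (φ v)) x : V' →ₗ[ℂ] Cm p)) ≤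
          Module.finrank ℂ (LinearMap.range (fderiv ℂ F (φ x) : V →ₗ[ℂ] Cm p)) := by
        refine Submodule.finrank_mono ?_
        rw [h2]
        rintro _ ⟨y, rfl⟩
        exact ⟨fderiv ℂ φ x y, rfl⟩
      omega
    have h1 : SThin2 (Cm p) (F '' (A' ∩ ball v ρ)) := by
      refine SThin2.image_of_local fun z hz => ?_
      refine case1 ihm V hm (ball v ρ) A' F isOpen_ball hFa hA'an hrk z hz.2 δ (hδa z hz.2) ?_ ?_
      · intro hcon
        have h1 : AnalyticOnNhd ℂ δ (ball v ρ) := hδa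
        exact hδ0 (h1.eqOn_zero_of_preconnected_of_eventuallyEq_zero
          (convex_ball v ρ).isPreconnected hz.2 hcon hz₀)
      · filter_upwards with w hw using hw
    have h2 : SThin2 (Cm p) (F '' (ball v ρ \ A')) := by
      refine SThin2.image_of_local fun z hz => ?_
      have hzs : Function.Surjective (fderiv ℂ F' z) := hδs z hz.2
      have hπs : Function.Surjective π := by
        rw [hF'd z hz.1] at hzs
        exact Function.Surjective.of_comp hzs
      have hopen : ∀ᶠ x in 𝓝 z, x ∈ ball v ρ ∧ δ x ≠ 0 :=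
        (isOpen_ball.eventually_mem hz.1).and ((hδa z hz.1).continuousAt.eventually_ne hz.2)
      have hker : ∀ᶠ x in 𝓝 z, ∀ ξ, fderiv ℂ F' x ξ = 0 → fderiv ℂ F x ξ = 0 := by
        filter_upwards [hopen] with x hx ξ hξ
        have h3 := hδs x hx.2
        rw [hF'd x hx.1] at h3 hξ
        let π' : LinearMap.range (fderiv ℂ F x : V →ₗ[ℂ] Cm p) →ₗ[ℂ] Cm r :=
          (π : Cm p →ₗ[ℂ] Cm r).comp (Submodule.subtype _)
        have hπ's : Function.Surjective π' := by
          intro y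
          obtain ⟨ξ', hξ'⟩ := h3 y
          exact ⟨⟨fderiv ℂ F x ξ', LinearMap.mem_range_self _ ξ'⟩, hξ'⟩
        have hle := hmax x hx.1
        have hge : r ≤ Module.finrank ℂ (LinearMap.range (fderiv ℂ F x : V →ₗ[ℂ] Cm p)) := by
          have := LinearMap.finrank_le_finrank_of_surjective hπ's
          simpa using this
        have hπ'i : Function.Injective π' := by
          refine (LinearMap.injective_iff_surjective_of_finrank_eq_finrank ?_).2 hπ's
          simp only [Module.finrank_fintype_fun_eq_card, Fintype.card_fin]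
          omega
        have h5 : (⟨fderiv ℂ F x ξ, LinearMap.mem_range_self _ ξ⟩ :
            LinearMap.range (fderiv ℂ F x : V →ₗ[ℂ] Cm p)) = 0 := by
          apply hπ'i
          rw [map_zero]
          exact hξ
        exact congrArg Subtype.val h5
      have hfac : ∀ i : Fin p, ∃ G : Cm r → ℂ, AnalyticAt ℂ G (F' z) ∧
          ∀ᶠ x in 𝓝 z, F x i = G (F' x) := by
        intro i
        let pi : Cm p →L[ℂ] ℂ := ContinuousLinearMap.proj (R := ℂ) (φ := fun _ : Fin p => ℂ) i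
        refine exists_factor (G := fun x => pi (F x)) (hF'a z hz.1)
          ((pi.analyticAt _).fun_comp (hFa z hz.1)) hzs ?_
        filter_upwards [hker, isOpen_ball.eventually_mem hz.1] with x hx hxb ξ hξ
        have h9 : fderiv ℂ (fun x => pi (F x)) x = pi.comp (fderiv ℂ F x) :=
          (pi.hasFDerivAt.comp x (hFa x hxb).differentiableAt.hasFDerivAt).fderiv
        rw [h9, ContinuousLinearMap.comp_apply, hx ξ hξ, map_zero]
      choose G hG hGF using hfac
      have hG' : AnalyticAt ℂ (fun w i => G i w) (F' z) := analyticAt_pi_iff.2 hG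
      have hGF' : ∀ᶠ x in 𝓝 z, F x = fun i => G i (F' x) := by
        filter_upwards [eventually_all.2 hGF] with x hx
        funext i
        exact hx i
      have hGe : ∀ᶠ x in 𝓝 z, AnalyticAt ℂ (fun w i => G i w) (F' x) :=
        (hF'a z hz.1).continuousAt.eventually hG'.eventually_analyticAt
      obtain ⟨K, hK, hKsub, hKc⟩ := local_compact_nhds
        (inter_mem (inter_mem (hGF' : {x | F x = fun i => G i (F' x)} ∈ 𝓝 z)
          (hGe : {x | AnalyticAt ℂ (fun w i => G i w) (F' x)} ∈ 𝓝 z)) (isOpen_ball.mem_nhds hz.1))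
      refine ⟨K, hK, ?_⟩
      have hthin : IsThin2 (Cm p) (F '' K) := by
        refine thin2_graph (π := π) (G := fun w i => G i w) (hKc.image_of_continuousOn fun x hx =>
          (hFa x (hKsub hx).2).continuousAt.continuousWithinAt) ?_ ?_ ?_
        · have h6 := LinearMap.finrank_range_add_finrank_ker (π : Cm p →ₗ[ℂ] Cm r)
          have h7 : LinearMap.range (π : Cm p →ₗ[ℂ] Cm r) = ⊤ := LinearMap.range_eq_top.2 hπs
          rw [h7, finrank_top] at h6
          simp only [Module.finrank_fintype_fun_eq_card, Fintype.card_fin] at h6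
          omega
        · rintro _ ⟨x, hx, rfl⟩
          exact (hKsub hx).1.2
        · rintro _ ⟨x, hx, rfl⟩
          exact (hKsub hx).1.1
      exact SThin2.of_thin hthin (image_mono inter_subset_right)
    refine (h1.union h2).mono ?_
    rintro _ ⟨x, ⟨-, hx⟩, rfl⟩
    by_cases hxA : x ∈ A'
    · exact Or.inl ⟨x, ⟨hxA, hx⟩, rfl⟩
    · exact Or.inr ⟨x, ⟨hx, hxA⟩, rfl⟩

end Vale.Agent.P281.H737.Gen
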