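import Vale.Agent.P281.H737.Gen.OneVar
import Vale.Agent.P281.H737.Gen.Core2

/-! P281, block V13a (helper737): a generically injective holomorphic map `F` between open subsets
of `ℂ^n` has rank at most `n - 2` on its critical set. -/

open Set Filter Metric Vale.Agent.P281 Vale.Agent.P281.J Vale.Agent.P281.H713
open Vale.Agent.P281.H64 (Cm)
open Vale.Agent.P281.H150.Gen
open scoped Topology ContDiff Manifold

noncomputable section

namespace Vale.Agent.P281.H737.Gen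

section

variable {V W : Type} [NormedAddCommGroup V] [NormedSpace ℂ V] [FiniteDimensional ℂ V]
  [NormedAddCommGroup W] [NormedSpace ℂ W] [FiniteDimensional ℂ W]

/-- Straightening a submersion. -/
theorem exists_straight' {F : V → W} {z : V} (hF : AnalyticAt ℂ F z)
    (hs : Function.Surjective (fderiv ℂ F z)) :
    ∃ (κ : V →L[ℂ] LinearMap.ker (fderiv ℂ F z : V →ₗ[ℂ] W))
      (R : W × LinearMap.ker (fderiv ℂ F z : V →ₗ[ℂ] W) → V),
      AnalyticAt ℂ R (F z, κ z) ∧ R (F z, κ z) = z ∧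
      (∀ᶠ q in 𝓝 (F z, κ z), F (R q) = q.1 ∧ κ (R q) = q.2) ∧
      ∀ᶠ x in 𝓝 z, R (F x, κ x) = x := by
  have : CompleteSpace V := FiniteDimensional.complete ℂ V
  set L := fderiv ℂ F z with hL
  have hcl : (LinearMap.ker (L : V →ₗ[ℂ] W)).ClosedComplemented :=
    Submodule.ClosedComplemented.of_finiteDimensional_quotient L.isClosed_ker
  obtain ⟨κ, hκ⟩ := hcl
  set G : V → W × LinearMap.ker (L : V →ₗ[ℂ] W) := fun x => (F x, κ x) with hG
  have hGa : AnalyticAt ℂ G z := hF.prod (κ.analyticAt z)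
  have hGc : ContDiffAt ℂ ω G z := hGa.contDiffAt
  have hGd : HasFDerivAt G (L.prod κ) z := hF.differentiableAt.hasFDerivAt.prodMk κ.hasFDerivAt
  have hbij : Function.Bijective
      ((L.prod κ : V →L[ℂ] (W × LinearMap.ker (L : V →ₗ[ℂ] W))) :
        V →ₗ[ℂ] (W × LinearMap.ker (L : V →ₗ[ℂ] W))) := by
    constructor
    · rw [injective_iff_map_eq_zero]
      intro v hv
      have hv1 : L v = 0 := (Prod.mk.inj hv).1
      have hv2 : κ v = 0 := (Prod.mk.inj hv).2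
      have h3 := hκ ⟨v, by simpa using hv1⟩
      simp only [hv2] at h3
      exact (congrArg Subtype.val h3).symm
    · rintro ⟨w, k⟩
      obtain ⟨v₀, hv₀⟩ := hs w
      refine ⟨v₀ + ((k : V) - (κ v₀ : V)), ?_⟩
      have hk1 : L (k : V) = 0 := by simp
      have hk2 : L (κ v₀ : V) = 0 := by simp
      refine Prod.ext ?_ ?_
      · show L (v₀ + ((k : V) - (κ v₀ : V))) = w
        rw [map_add, map_sub, hk1, hk2, hv₀]; simp
      · show κ (v₀ + ((k : V) - (κ v₀ : V))) = k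
        rw [map_add, map_sub, hκ, hκ]; simp
  let e : V ≃L[ℂ] (W × LinearMap.ker (L : V →ₗ[ℂ] W)) :=
    (LinearEquiv.ofBijective _ hbij).toContinuousLinearEquiv
  have he : (e : V →L[ℂ] (W × LinearMap.ker (L : V →ₗ[ℂ] W))) = L.prod κ := by ext v <;> rfl
  have hGd' : HasFDerivAt G (e : V →L[ℂ] (W × LinearMap.ker (L : V →ₗ[ℂ] W))) z := by
    rw [he]; exact hGd
  have hn : (ω : WithTop ℕ∞) ≠ 0 := by simp
  set R := hGc.localInverse hGd' hn with hR
  have hRc : ContDiffAt ℂ ω R (G z) := hGc.to_localInverse hGd' hn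
  have hstr : HasStrictFDerivAt G (e : V →L[ℂ] (W × LinearMap.ker (L : V →ₗ[ℂ] W))) z :=
    hGc.hasStrictFDerivAt' hGd' hn
  have hRr : ∀ᶠ w in 𝓝 (G z), G (R w) = w := hstr.eventually_right_inverse
  have hRl : ∀ᶠ v in 𝓝 z, R (G v) = v := hstr.eventually_left_inverse
  have hR0 : R (G z) = z := hGc.localInverse_apply_image hGd' hn
  refine ⟨κ, R, ContDiffAt.analyticAt hRc, hR0, ?_, hRl⟩
  filter_upwards [hRr] with q hq
  exact ⟨congrArg Prod.fst hq, congrArg Prod.snd hq⟩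

/-- The local inverse of a holomorphic map whose differential is the identity. -/
theorem exists_inv {F : W → W} {z : W} (hF : AnalyticAt ℂ F z)
    (hd : HasFDerivAt F (ContinuousLinearMap.id ℂ W) z) :
    ∃ θ : W → W, AnalyticAt ℂ θ (F z) ∧ θ (F z) = z ∧ ∀ᶠ w in 𝓝 (F z), F (θ w) = w := by
  have : CompleteSpace W := FiniteDimensional.complete ℂ W
  have hc : ContDiffAt ℂ ω F z := hF.contDiffAt
  have hd' : HasFDerivAt F ((ContinuousLinearEquiv.refl ℂ W : W ≃L[ℂ] W) : W →L[ℂ] W) z := hd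
  have hn : (ω : WithTop ℕ∞) ≠ 0 := by simp
  have hstr : HasStrictFDerivAt F ((ContinuousLinearEquiv.refl ℂ W : W ≃L[ℂ] W) : W →L[ℂ] W) z :=
    hc.hasStrictFDerivAt' hd' hn
  exact ⟨hc.localInverse hd' hn, (hc.to_localInverse hd' hn).analyticAt,
    hc.localInverse_apply_image hd' hn, hstr.eventually_right_inverse⟩

end

/-- Surjectivity is an open condition. -/
theorem eventually_surj {V R : Type} [NormedAddCommGroup V] [NormedSpace ℂ V]
    [FiniteDimensional ℂ V] [NormedAddCommGroup R] [NormedSpace ℂ R] [FiniteDimensional ℂ R]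
    {L : V →L[ℂ] R} (hL : Function.Surjective L) : ∀ᶠ M : V →L[ℂ] R in 𝓝 L,
    Function.Surjective M := by
  have : CompleteSpace R := FiniteDimensional.complete ℂ R
  obtain ⟨σ, hσ⟩ := (L : V →ₗ[ℂ] R).exists_rightInverse_of_surjective
    (LinearMap.range_eq_top.2 hL)
  let σ' : R →L[ℂ] V := LinearMap.toContinuousLinearMap σ
  have h1 : L.comp σ' = 1 := by
    ext x
    exact congrArg (fun T : R →ₗ[ℂ] R => T x) hσ
  have h2 : Continuous fun M : V →L[ℂ] R => M.comp σ' := by fun_prop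
  have h3 : ∀ᶠ M in 𝓝 L, IsUnit (M.comp σ') := by
    refine h2.continuousAt.eventually (Units.isOpen.mem_nhds ?_)
    show IsUnit (L.comp σ')
    rw [h1]; exact isUnit_one
  filter_upwards [h3] with M hM y
  obtain ⟨u, hu⟩ := hM
  refine ⟨σ' ((↑u⁻¹ : R →L[ℂ] R) y), ?_⟩
  have h4 : (M.comp σ') ((↑u⁻¹ : R →L[ℂ] R) y) = y := by
    rw [← hu]
    exact congrArg (fun T : R →L[ℂ] R => T y) u.mul_inv
  exact h4

/-- Linear algebra: an endomorphism `L` which is not bijective, with `π ∘ L` surjective onto a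
space of dimension `n - 1`. -/
theorem eq_zero_of_proj {V E R : Type} [AddCommGroup V] [Module ℂ V] [FiniteDimensional ℂ V]
    [AddCommGroup E] [Module ℂ E] [FiniteDimensional ℂ E] [AddCommGroup R] [Module ℂ R]
    [FiniteDimensional ℂ R] (hVE : Module.finrank ℂ V = Module.finrank ℂ E)
    (hR : Module.finrank ℂ R + 1 = Module.finrank ℂ E) {L : V →ₗ[ℂ] E} {π : E →ₗ[ℂ] R}
    (hL : ¬ Function.Bijective L) (hs : Function.Surjective (π.comp L)) (ξ : V)
    (h : π (L ξ) = 0) : L ξ = 0 := by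
  have hns : ¬ Function.Surjective L := by
    intro h1
    exact hL ⟨(LinearMap.injective_iff_surjective_of_finrank_eq_finrank hVE).2 h1, h1⟩
  have hlt : Module.finrank ℂ (LinearMap.range L) < Module.finrank ℂ E := by
    refine Submodule.finrank_lt ?_
    intro h1
    exact hns (LinearMap.range_eq_top.1 h1)
  let π' : LinearMap.range L →ₗ[ℂ] R := π.comp (Submodule.subtype _)
  have hπ's : Function.Surjective π' := by
    intro y
    obtain ⟨ξ', hξ'⟩ := hs y
    exact ⟨⟨L ξ', LinearMap.mem_range_self _ ξ'⟩, hξ'⟩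
  have hge := LinearMap.finrank_le_finrank_of_surjective hπ's
  have hπ'i : Function.Injective π' := by
    refine (LinearMap.injective_iff_surjective_of_finrank_eq_finrank ?_).2 hπ's
    omega
  have h5 : (⟨L ξ, LinearMap.mem_range_self _ ξ⟩ : LinearMap.range L) = 0 := by
    apply hπ'i
    rw [map_zero]
    exact h
  exact congrArg Subtype.val h5

/-- Linear algebra: `π ∘ L` is surjective onto a space of dimension `n - 1`, and the range of `L`
contains a non zero vector of the kernel of `π`. -/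
theorem bij_of_proj {V E R : Type} [AddCommGroup V] [Module ℂ V] [FiniteDimensional ℂ V]
    [AddCommGroup E] [Module ℂ E] [FiniteDimensional ℂ E] [AddCommGroup R] [Module ℂ R]
    [FiniteDimensional ℂ R] (hVE : Module.finrank ℂ V = Module.finrank ℂ E)
    (hR : Module.finrank ℂ R + 1 = Module.finrank ℂ E) {L : V →ₗ[ℂ] E} {π : E →ₗ[ℂ] R}
    (hs : Function.Surjective (π.comp L)) (ξ : V)
    (h : π (L ξ) = 0) (h0 : L ξ ≠ 0) : Function.Bijective L := by
  by_contra hL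
  exact h0 (eq_zero_of_proj hVE hR hL hs ξ h)

/-- Let `F` be a generically injective holomorphic map between open subsets of `ℂ^n`, and let `π` be
a projection to a space `R` of dimension `n - 1` such that `π ∘ F` is a submersion. There is no
section `s` of `π ∘ F` with values in the critical set of `F`: along `s`, the restriction of `F` to
the fibres of `π ∘ F` would have critical points. -/
theorem no_section {n : ℕ} {R : Type} [NormedAddCommGroup R] [NormedSpace ℂ R]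
    [FiniteDimensional ℂ R] (hR : Module.finrank ℂ R + 1 = n) {W : Set (Cm n)}
    {F : Cm n → Cm n} (hW : IsOpen W) (hF : ∀ z ∈ W, AnalyticAt ℂ F z)
    (h1 : ∀ z₁ ∈ W, ∀ z₂ ∈ W, z₁ ≠ z₂ → F z₁ = F z₂ → Function.Bijective (fderiv ℂ F z₁) →
      Function.Bijective (fderiv ℂ F z₂) → False)
    (h2 : ∀ N, IsOpen N → N.Nonempty → N ⊆ W → ∃ z ∈ N, ∀ z' ∈ W, F z' = F z → z' = z)
    (π : Cm n →L[ℂ] R) {z₀ : Cm n} (hz₀ : z₀ ∈ W)
    (hs₀ : Function.Surjective (π.comp (fderiv ℂ F z₀))) {s : R → Cm n}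
    (hsa : AnalyticAt ℂ s (π (F z₀))) (hs0 : s (π (F z₀)) = z₀)
    (hsF : ∀ᶠ w in 𝓝 (π (F z₀)), π (F (s w)) = w)
    (hsA : ∀ᶠ w in 𝓝 (π (F z₀)), ¬ Function.Bijective (fderiv ℂ F (s w))) : False := by
  have hπs : Function.Surjective π := Function.Surjective.of_comp hs₀
  have hnn : Module.finrank ℂ (Cm n) = n := by simp
  set F' : Cm n → R := fun z => π (F z) with hF'
  set w₀ : R := F' z₀ with hw₀
  have hF'a : ∀ z ∈ W, AnalyticAt ℂ F' z := fun z hz => (π.analyticAt _).fun_comp (hF z hz)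
  have hF'd : ∀ z ∈ W, fderiv ℂ F' z = π.comp (fderiv ℂ F z) := fun z hz =>
    (π.hasFDerivAt.comp z (hF z hz).differentiableAt.hasFDerivAt).fderiv
  have hs' : Function.Surjective (fderiv ℂ F' z₀) := by rw [hF'd z₀ hz₀]; exact hs₀
  obtain ⟨κ, Q, hQa, hQ0, hQr, hQl⟩ := exists_straight' (hF'a z₀ hz₀) hs'
  -- the kernel is one dimensional
  have hK : Module.finrank ℂ (LinearMap.ker (fderiv ℂ F' z₀ : Cm n →ₗ[ℂ] R)) = 1 := by
    have h3 := LinearMap.finrank_range_add_finrank_ker (fderiv ℂ F' z₀ : Cm n →ₗ[ℂ] R)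
    have h4 : LinearMap.range (fderiv ℂ F' z₀ : Cm n →ₗ[ℂ] R) = ⊤ := LinearMap.range_eq_top.2 hs'
    rw [h4, finrank_top, hnn] at h3
    omega
  obtain ⟨e, he0, he⟩ := finrank_eq_one_iff'.1 hK
  -- a linear functional which is injective on the kernel of `π`
  have hKπ : Module.finrank ℂ (LinearMap.ker (π : Cm n →ₗ[ℂ] R)) = 1 := by
    have h3 := LinearMap.finrank_range_add_finrank_ker (π : Cm n →ₗ[ℂ] R)
    have h4 : LinearMap.range (π : Cm n →ₗ[ℂ] R) = ⊤ := LinearMap.range_eq_top.2 hπs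
    rw [h4, finrank_top, hnn] at h3
    omega
  obtain ⟨l, hl⟩ : ∃ l : Cm n →L[ℂ] ℂ, ∀ v, π v = 0 → l v = 0 → v = 0 := by
    obtain ⟨m, hm0, hm⟩ := finrank_eq_one_iff'.1 hKπ
    have hm0' : (m : Cm n) ≠ 0 := fun h => hm0 (Subtype.ext h)
    obtain ⟨l, hl⟩ := SeparatingDual.exists_ne_zero (R := ℂ) hm0'
    refine ⟨l, fun v hv hlv => ?_⟩
    obtain ⟨c, hc⟩ := hm ⟨v, hv⟩
    have hc' : c • (m : Cm n) = v := congrArg Subtype.val hc
    rw [← hc', map_smul, smul_eq_mul] at hlv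
    rcases mul_eq_zero.1 hlv with h | h
    · rw [← hc', h, zero_smul]
    · exact absurd h hl
  -- the coordinates `β`
  set β : R × ℂ → Cm n := fun q => Q (q.1, κ (s q.1) + q.2 • e) with hβ
  have hin : AnalyticAt ℂ (fun q : R × ℂ => (q.1, κ (s q.1) + q.2 • e)) (w₀, 0) := by
    refine AnalyticAt.prod analyticAt_fst ?_
    refine AnalyticAt.add ?_ (analyticAt_snd.smul analyticAt_const)
    have h3 : AnalyticAt ℂ (fun q : R × ℂ => s q.1) (w₀, 0) :=
      AnalyticAt.fun_comp (g := s) (f := fun q : R × ℂ => q.1) hsa analyticAt_fst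
    exact (κ.analyticAt _).fun_comp h3
  have hin0 : ((w₀, κ (s w₀) + (0 : ℂ) • e) : R × _) = (w₀, κ z₀) := by
    rw [hs0, zero_smul, add_zero]
  have hβa : AnalyticAt ℂ β (w₀, 0) := by
    refine AnalyticAt.fun_comp (g := Q) (f := fun q : R × ℂ => (q.1, κ (s q.1) + q.2 • e)) ?_ hin
    show AnalyticAt ℂ Q (w₀, κ (s w₀) + (0 : ℂ) • e)
    rw [hin0]; exact hQa
  have hβ0 : β (w₀, 0) = z₀ := by
    show Q (w₀, κ (s w₀) + (0 : ℂ) • e) = z₀
    rw [hin0]; exact hQ0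
  have hint : Tendsto (fun q : R × ℂ => (q.1, κ (s q.1) + q.2 • e)) (𝓝 (w₀, 0))
      (𝓝 (w₀, κ z₀)) := by
    have := hin.continuousAt.tendsto
    rwa [show ((w₀, (0 : ℂ)).1, κ (s (w₀, (0 : ℂ)).1) + (w₀, (0 : ℂ)).2 • e) = (w₀, κ z₀)
      from hin0] at this
  have hβt : Tendsto β (𝓝 (w₀, 0)) (𝓝 z₀) := by
    have := hβa.continuousAt.tendsto
    rwa [hβ0] at this
  have hfst : Tendsto (fun q : R × ℂ => q.1) (𝓝 (w₀, 0)) (𝓝 w₀) := continuous_fst.tendsto _
  have hst : Tendsto s (𝓝 w₀) (𝓝 z₀) := by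
    have := hsa.continuousAt.tendsto
    rwa [hs0] at this
  -- surjectivity is an open condition
  have hsurj : ∀ᶠ z in 𝓝 z₀, Function.Surjective (fderiv ℂ F' z) := by
    have : CompleteSpace (Cm n) := FiniteDimensional.complete ℂ _
    have : CompleteSpace R := FiniteDimensional.complete ℂ _
    have h3 : ContinuousAt (fun z => fderiv ℂ F' z) z₀ := (hF'a z₀ hz₀).fderiv.continuousAt
    exact h3.eventually (eventually_surj hs')
  have hall : ∀ᶠ q in 𝓝 (w₀, (0 : ℂ)), (F' (β q) = q.1 ∧ κ (β q) = κ (s q.1) + q.2 • e) ∧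
      β q ∈ W ∧ AnalyticAt ℂ β q ∧ β (q.1, 0) = s q.1 ∧ ¬ Function.Bijective (fderiv ℂ F (s q.1)) ∧
      Function.Surjective (fderiv ℂ F' (β q)) := by
    refine (hint.eventually hQr).and ((hβt.eventually (hW.eventually_mem hz₀)).and
      (hβa.eventually_analyticAt.and (Filter.Eventually.and ?_
        ((hfst.eventually hsA).and (hβt.eventually hsurj)))))
    have h3 : ∀ᶠ w in 𝓝 w₀, Q (F' (s w), κ (s w)) = s w := hst.eventually hQl
    filter_upwards [hfst.eventually (h3.and hsF)] with q hq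
    show Q (q.1, κ (s q.1) + (0 : ℂ) • e) = s q.1
    rw [zero_smul, add_zero]
    have h4 := hq.1
    have h5 : F' (s q.1) = q.1 := hq.2
    rwa [h5] at h4
  obtain ⟨δ, hδ, hball⟩ := Metric.eventually_nhds_iff_ball.1 hall
  have hmem : ∀ w ∈ ball w₀ δ, ∀ t ∈ ball (0 : ℂ) δ, (w, t) ∈ ball (w₀, (0 : ℂ)) δ := by
    intro w hw t ht
    rw [← ball_prod_same]
    exact ⟨hw, ht⟩
  set f : R → ℂ → ℂ := fun w t => l (F (β (w, t))) with hf
  have hpt : ∀ w ∈ ball w₀ δ, ∀ t ∈ ball (0 : ℂ) δ, HasDerivAt (fun t => F (β (w, t)))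
      (fderiv ℂ F (β (w, t)) (fderiv ℂ β (w, t) (0, 1))) t ∧
      π (fderiv ℂ F (β (w, t)) (fderiv ℂ β (w, t) (0, 1))) = 0 := by
    intro w hw t ht
    obtain ⟨-, h4, h5, -, -, -⟩ := hball _ (hmem w hw t ht)
    have h6 : HasDerivAt (fun t : ℂ => (w, t)) ((0 : R), (1 : ℂ)) t :=
      (hasDerivAt_const t w).prodMk (hasDerivAt_id t)
    have h7 : HasDerivAt (fun t : ℂ => β (w, t)) (fderiv ℂ β (w, t) (0, 1)) t :=
      h5.differentiableAt.hasFDerivAt.comp_hasDerivAt t h6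
    have h8 : HasDerivAt (fun t => F (β (w, t)))
        (fderiv ℂ F (β (w, t)) (fderiv ℂ β (w, t) (0, 1))) t :=
      (hF _ h4).differentiableAt.hasFDerivAt.comp_hasDerivAt t h7
    refine ⟨h8, ?_⟩
    have h9 : HasDerivAt (fun t => π (F (β (w, t))))
        (π (fderiv ℂ F (β (w, t)) (fderiv ℂ β (w, t) (0, 1)))) t :=
      π.hasFDerivAt.comp_hasDerivAt t h8
    have h10 : HasDerivAt (fun t => π (F (β (w, t)))) 0 t := by
      refine (hasDerivAt_const t w).congr_of_eventuallyEq ?_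
      filter_upwards [isOpen_ball.mem_nhds ht] with t' ht'
      exact (hball _ (hmem w hw t' ht')).1.1
    exact h9.unique h10
  have hfd : ∀ w ∈ ball w₀ δ, ∀ t ∈ ball (0 : ℂ) δ, HasDerivAt (f w)
      (l (fderiv ℂ F (β (w, t)) (fderiv ℂ β (w, t) (0, 1)))) t := fun w hw t ht =>
    l.hasFDerivAt.comp_hasDerivAt t (hpt w hw t ht).1
  have hfa : ∀ w ∈ ball w₀ δ, ∀ t ∈ ball (0 : ℂ) δ, AnalyticAt ℂ (f w) t := by
    intro w hw t ht
    have h3 : DifferentiableOn ℂ (f w) (ball 0 δ) := fun t' ht' =>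
      (hfd w hw t' ht').differentiableAt.differentiableWithinAt
    exact h3.analyticAt (isOpen_ball.mem_nhds ht)
  have hf0 : ∀ w ∈ ball w₀ δ, deriv (f w) 0 = 0 := by
    intro w hw
    have h0 : (0 : ℂ) ∈ ball (0 : ℂ) δ := mem_ball_self hδ
    obtain ⟨-, h4, h5, h6, h7, h8⟩ := hball _ (hmem w hw 0 h0)
    rw [(hfd w hw 0 h0).deriv]
    have h9 := (hpt w hw 0 h0).2
    rw [hF'd _ h4] at h8
    have h6' : β (w, 0) = s w := h6
    rw [← h6] at h7
    have h10 := eq_zero_of_proj (L := (fderiv ℂ F (β (w, 0)) : Cm n →ₗ[ℂ] Cm n))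
      (π := (π : Cm n →ₗ[ℂ] R)) rfl (by rw [hnn]; exact hR) h7 h8 _ h9
    have h11 : fderiv ℂ F (β (w, 0)) (fderiv ℂ β (w, 0) (0, 1)) = 0 := h10
    rw [h11, map_zero]
  have hne : ∀ w ∈ ball w₀ δ, ∀ t ∈ ball (0 : ℂ) δ, ∀ t' ∈ ball (0 : ℂ) δ, t ≠ t' →
      β (w, t) ≠ β (w, t') := by
    intro w hw t ht t' ht' htt h
    have h3 := (hball _ (hmem w hw t ht)).1.2
    have h4 := (hball _ (hmem w hw t' ht')).1.2
    rw [h] at h3
    rw [h3] at h4
    have h5 : t • e = t' • e := add_left_cancel h4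
    have h6 : (t - t') • e = 0 := (sub_smul t t' e).trans (by rw [h5, sub_self])
    rcases smul_eq_zero.1 h6 with h7 | h7
    · exact htt (sub_eq_zero.1 h7)
    · exact he0 h7
  have hFeq : ∀ w ∈ ball w₀ δ, ∀ t ∈ ball (0 : ℂ) δ, ∀ t' ∈ ball (0 : ℂ) δ, f w t = f w t' →
      F (β (w, t)) = F (β (w, t')) := by
    intro w hw t ht t' ht' h
    have h3 : F' (β (w, t)) = w := (hball _ (hmem w hw t ht)).1.1
    have h4 : F' (β (w, t')) = w := (hball _ (hmem w hw t' ht')).1.1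
    have h5 : F (β (w, t)) - F (β (w, t')) = 0 := by
      apply hl
      · rw [map_sub]
        show F' (β (w, t)) - F' (β (w, t')) = 0
        rw [h3, h4, sub_self]
      · rw [map_sub]
        show f w t - f w t' = 0
        rw [h, sub_self]
    exact sub_eq_zero.1 h5
  by_cases hcase : ∀ w ∈ ball w₀ δ, ∀ t ∈ ball (0 : ℂ) δ, f w t = f w 0
  · -- `F` is constant along the fibres of `F'`
    have hgood : ∀ᶠ z in 𝓝 z₀, z ∈ W ∧ ∃ w ∈ ball w₀ δ, ∃ t ∈ ball (0 : ℂ) δ, z = β (w, t) := by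
      have hz1 : Tendsto F' (𝓝 z₀) (𝓝 w₀) := (hF'a z₀ hz₀).continuousAt.tendsto
      have hz2 : Tendsto (fun z => κ z - κ (s (F' z))) (𝓝 z₀) (𝓝 0) := by
        have h3 : Tendsto (fun z => κ z) (𝓝 z₀) (𝓝 (κ z₀)) := κ.continuous.tendsto _
        have h4 : Tendsto (fun z => κ (s (F' z))) (𝓝 z₀) (𝓝 (κ z₀)) :=
          (κ.continuous.tendsto _).comp (hst.comp hz1)
        simpa using h3.sub h4
      have hen : 0 < ‖e‖ := norm_pos_iff.2 he0
      have hz3 : ∀ᶠ z in 𝓝 z₀, κ z - κ (s (F' z)) ∈ ball (0 : _) (δ * ‖e‖) :=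
        hz2.eventually (ball_mem_nhds _ (by positivity))
      filter_upwards [hW.eventually_mem hz₀, hz1.eventually (ball_mem_nhds _ hδ), hz3, hQl]
        with z h3 h4 h5 h6
      obtain ⟨t, ht⟩ := he (κ z - κ (s (F' z)))
      refine ⟨h3, F' z, h4, t, ?_, ?_⟩
      · rw [← ht, mem_ball, dist_zero_right, norm_smul] at h5
        rw [mem_ball, dist_zero_right]
        exact lt_of_mul_lt_mul_right h5 hen.le
      · show z = Q (F' z, κ (s (F' z)) + t • e)
        rw [ht, add_sub_cancel, h6]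
    obtain ⟨N, hN1, hN2, hN3⟩ := _root_.eventually_nhds_iff.1 hgood
    obtain ⟨z, hz, hzu⟩ := h2 N hN2 ⟨z₀, hN3⟩ (fun z hz => (hN1 z hz).1)
    obtain ⟨-, w, hw, t, ht, rfl⟩ := hN1 z hz
    obtain ⟨t', ht', htt⟩ : ∃ t' ∈ ball (0 : ℂ) δ, t' ≠ t := by
      by_cases h0 : t = 0
      · refine ⟨((δ / 2 : ℝ) : ℂ), ?_, ?_⟩
        · rw [mem_ball, dist_zero_right, Complex.norm_real, Real.norm_of_nonneg (by positivity)]
          linarith
        · rw [h0]; exact_mod_cast (by positivity : (0 : ℝ) < δ / 2).ne'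
      · exact ⟨0, mem_ball_self hδ, fun h => h0 h.symm⟩
    refine hne w hw t' ht' t ht htt (hzu _ (hball _ (hmem w hw t' ht')).2.1 ?_)
    refine hFeq w hw t' ht' t ht ?_
    rw [hcase w hw t' ht', hcase w hw t ht]
  · push Not at hcase
    obtain ⟨w, hw, t₀, ht₀, hft⟩ := hcase
    have h0 : (0 : ℂ) ∈ ball (0 : ℂ) δ := mem_ball_self hδ
    have hnc : ¬ ∀ᶠ t in 𝓝 (0 : ℂ), f w t = f w 0 := by
      intro h
      apply hft
      have h3 : AnalyticOnNhd ℂ (f w) (ball 0 δ) := fun t ht => hfa w hw t ht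
      have h4 : AnalyticOnNhd ℂ (fun _ : ℂ => f w 0) (ball 0 δ) := fun t _ => analyticAt_const
      exact h3.eqOn_of_preconnected_of_eventuallyEq h4 (convex_ball _ _).isPreconnected h0 h ht₀
    obtain ⟨t₁, ht₁, t₂, ht₂, hne12, hf12, hd1, hd2⟩ := exists_two (hfa w hw 0 h0) hnc (hf0 w hw)
      (ball_mem_nhds (0 : ℂ) hδ)
    have hbij : ∀ t ∈ ball (0 : ℂ) δ, deriv (f w) t ≠ 0 →
        Function.Bijective (fderiv ℂ F (β (w, t))) := by
      intro t ht hd
      obtain ⟨-, h4, h5, h6, h7, h8⟩ := hball _ (hmem w hw t ht)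
      rw [hF'd _ h4] at h8
      rw [(hfd w hw t ht).deriv] at hd
      refine bij_of_proj (L := (fderiv ℂ F (β (w, t)) : Cm n →ₗ[ℂ] Cm n))
        (π := (π : Cm n →ₗ[ℂ] R)) rfl (by rw [hnn]; exact hR) h8 _ (hpt w hw t ht).2 ?_
      intro h9
      apply hd
      have h10 : fderiv ℂ F (β (w, t)) (fderiv ℂ β (w, t) (0, 1)) = 0 := h9
      rw [h10, map_zero]
    exact h1 _ (hball _ (hmem w hw t₁ ht₁)).2.1 _ (hball _ (hmem w hw t₂ ht₂)).2.1
      (hne w hw t₁ ht₁ t₂ ht₂ hne12) (hFeq w hw t₁ ht₁ t₂ ht₂ hf12) (hbij t₁ ht₁ hd1)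
      (hbij t₂ ht₂ hd2)

/-- A generically injective holomorphic map `F` has rank at most `n - 2` on its critical set. -/
theorem rkLe_of_inj {n : ℕ} {W : Set (Cm n)} {F : Cm n → Cm n} (hW : IsOpen W)
    (hF : ∀ z ∈ W, AnalyticAt ℂ F z)
    (h1 : ∀ z₁ ∈ W, ∀ z₂ ∈ W, z₁ ≠ z₂ → F z₁ = F z₂ → Function.Bijective (fderiv ℂ F z₁) →
      Function.Bijective (fderiv ℂ F z₂) → False)
    (h2 : ∀ N, IsOpen N → N.Nonempty → N ⊆ W → ∃ z ∈ N, ∀ z' ∈ W, F z' = F z → z' = z) :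
    RkLe W {z | ¬ Function.Bijective (fderiv ℂ F z)} F := by
  intro V' _ _ _ W' φ hW' hφ x hx
  by_contra hcon
  have hz₀ : φ x ∈ W := (hφ x hx).2.2
  have hnb : ¬ Function.Bijective (fderiv ℂ F (φ x)) := (hφ x hx).2.1
  have hL : fderiv ℂ (fun v => F (φ v)) x = (fderiv ℂ F (φ x)).comp (fderiv ℂ φ x) :=
    (((hF _ hz₀).differentiableAt.hasFDerivAt).comp x
      (hφ x hx).1.differentiableAt.hasFDerivAt).fderiv
  have hnn : Module.finrank ℂ (Cm n) = n := by simp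
  set L : V' →ₗ[ℂ] Cm n := (fderiv ℂ (fun v => F (φ v)) x : V' →ₗ[ℂ] Cm n) with hLdef
  have hLv : ∀ v, L v = fderiv ℂ F (φ x) (fderiv ℂ φ x v) := by
    intro v
    show fderiv ℂ (fun v => F (φ v)) x v = _
    rw [hL]; rfl
  set R : Submodule ℂ (Cm n) :=
    LinearMap.range (fderiv ℂ F (φ x) : Cm n →ₗ[ℂ] Cm n) with hRdef
  have hns : ¬ Function.Surjective (fderiv ℂ F (φ x) : Cm n →ₗ[ℂ] Cm n) := by
    intro h3
    exact hnb ⟨(LinearMap.injective_iff_surjective_of_finrank_eq_finrank rfl).2 h3, h3⟩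
  have hlt : Module.finrank ℂ R < n := by
    have h3 : R < ⊤ := lt_top_iff_ne_top.2 fun h3 => hns (LinearMap.range_eq_top.1 h3)
    have h4 := Submodule.finrank_lt h3.ne
    rwa [hnn] at h4
  have hle : LinearMap.range L ≤ R := by
    rintro _ ⟨v, rfl⟩
    rw [hLv]
    exact ⟨fderiv ℂ φ x v, rfl⟩
  have heq : LinearMap.range L = R := by
    refine Submodule.eq_of_le_of_finrank_le hle ?_
    omega
  have hRn : Module.finrank ℂ R + 1 = n := by
    rw [heq] at hcon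
    omega
  obtain ⟨π₁, hπ₁⟩ := LinearMap.exists_leftInverse_of_injective R.subtype (Submodule.ker_subtype R)
  let π : Cm n →L[ℂ] R := LinearMap.toContinuousLinearMap π₁
  have hπ : ∀ r : R, π r = r := fun r => congrArg (fun T : R →ₗ[ℂ] R => T r) hπ₁
  let L' : V' →ₗ[ℂ] R := LinearMap.codRestrict R L fun v => hle ⟨v, rfl⟩
  have hL's : Function.Surjective L' := by
    rintro ⟨y, hy⟩
    rw [← heq] at hy
    obtain ⟨v, hv⟩ := hy
    exact ⟨v, Subtype.ext hv⟩
  obtain ⟨ρ₁, hρ₁⟩ := L'.exists_rightInverse_of_surjective (LinearMap.range_eq_top.2 hL's)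
  let ρ : R →L[ℂ] V' := LinearMap.toContinuousLinearMap ρ₁
  have hρ : ∀ r : R, L (ρ r) = r := fun r =>
    congrArg (fun T : R →ₗ[ℂ] R => (T r : Cm n)) hρ₁
  set c : R → Cm n := fun r => φ (x + ρ r) with hc
  have hc0 : c 0 = φ x := by simp [hc]
  have hxρ : x + ρ 0 = x := by simp
  have hia : AnalyticAt ℂ (fun r : R => x + ρ r) 0 := analyticAt_const.add (ρ.analyticAt 0)
  have hca : AnalyticAt ℂ c 0 := by
    refine AnalyticAt.fun_comp (g := φ) (f := fun r : R => x + ρ r) ?_ hia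
    rw [hxρ]; exact (hφ x hx).1
  set P : R → R := fun r => π (F (c r)) with hP
  have hP0 : P 0 = π (F (φ x)) := by rw [hP]; simp only [hc0]
  have hPa : AnalyticAt ℂ P 0 := by
    refine (π.analyticAt _).fun_comp ?_
    refine AnalyticAt.fun_comp (g := F) (f := c) ?_ hca
    rw [hc0]; exact hF _ hz₀
  have hPd : HasFDerivAt P (ContinuousLinearMap.id ℂ R) 0 := by
    have h3 : AnalyticAt ℂ (fun v => F (φ v)) x :=
      AnalyticAt.fun_comp (g := F) (f := φ) (hF _ hz₀) (hφ x hx).1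
    have h4 : HasFDerivAt (fun r : R => x + ρ r) ρ 0 := ρ.hasFDerivAt.const_add x
    have h5 : HasFDerivAt (fun v => F (φ v)) (fderiv ℂ (fun v => F (φ v)) x) (x + ρ 0) := by
      rw [hxρ]; exact h3.differentiableAt.hasFDerivAt
    have h6 : HasFDerivAt (fun r : R => F (φ (x + ρ r)))
        ((fderiv ℂ (fun v => F (φ v)) x).comp ρ) 0 :=
      HasFDerivAt.comp (f := fun r : R => x + ρ r) (0 : R) h5 h4
    have h7 : HasFDerivAt (fun r : R => π (F (φ (x + ρ r))))
        (π.comp ((fderiv ℂ (fun v => F (φ v)) x).comp ρ)) 0 :=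
      π.hasFDerivAt.comp (0 : R) h6
    have h8 : π.comp ((fderiv ℂ (fun v => F (φ v)) x).comp ρ) = ContinuousLinearMap.id ℂ R := by
      ext r : 1
      show π (L (ρ r)) = r
      rw [hρ, hπ]
    rw [h8] at h7
    exact h7
  obtain ⟨θ, hθa, hθ0, hθ⟩ := exists_inv hPa hPd
  rw [hP0] at hθa hθ0 hθ
  have hθt : Tendsto θ (𝓝 (π (F (φ x)))) (𝓝 0) := by
    have := hθa.continuousAt.tendsto
    rwa [hθ0] at this
  refine no_section hRn hW hF h1 h2 π hz₀ ?_ (s := fun w => c (θ w)) ?_ ?_ hθ ?_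
  · intro r
    obtain ⟨ξ, hξ⟩ := r.2
    refine ⟨ξ, ?_⟩
    show π (fderiv ℂ F (φ x) ξ) = r
    have h3 : fderiv ℂ F (φ x) ξ = (r : Cm n) := hξ
    rw [h3, hπ]
  · refine AnalyticAt.fun_comp (g := c) (f := θ) ?_ hθa
    rw [hθ0]; exact hca
  · show c (θ (π (F (φ x)))) = φ x
    rw [hθ0, hc0]
  · have h3 : Tendsto (fun r : R => x + ρ r) (𝓝 0) (𝓝 x) := by
      have := hia.continuousAt.tendsto
      rwa [hxρ] at this
    filter_upwards [(h3.comp hθt).eventually (hW'.eventually_mem hx)] with w hw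
    exact (hφ _ hw).2.1

end Vale.Agent.P281.H737.Gen
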