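import Mathlib

/-! P281, block V13a (helper737): a holomorphic function of one variable is not injective near a
critical point. -/

open Set Filter Metric
open scoped ContDiff Topology

noncomputable section

namespace Vale.Agent.P281.H737.Gen

/-- Near a critical point of a holomorphic function `f` which is not constant, there are two points
which are not critical, with the same value. -/
theorem exists_two {f : ℂ → ℂ} {z₀ : ℂ} (hf : AnalyticAt ℂ f z₀)
    (hne : ¬ ∀ᶠ z in 𝓝 z₀, f z = f z₀) (hd : deriv f z₀ = 0) {N : Set ℂ} (hN : N ∈ 𝓝 z₀) :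
    ∃ z₁ ∈ N, ∃ z₂ ∈ N, z₁ ≠ z₂ ∧ f z₁ = f z₂ ∧ deriv f z₁ ≠ 0 ∧ deriv f z₂ ≠ 0 := by
  set F : ℂ → ℂ := fun z => f z - f z₀ with hF
  have hFa : AnalyticAt ℂ F z₀ := hf.sub analyticAt_const
  have hFne : ¬ ∀ᶠ z in 𝓝 z₀, F z = 0 := by
    intro h
    apply hne
    filter_upwards [h] with z hz
    simpa [hF, sub_eq_zero] using hz
  obtain ⟨m, g, hg, hg0, hFg⟩ := hFa.exists_eventuallyEq_pow_smul_nonzero_iff.2 hFne
  have hFd : deriv F z₀ = 0 := by
    rw [hF]; simp [hd]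
  have hm : 2 ≤ m := by
    rcases m with _ | _ | m
    · exfalso
      have := hFg.self_of_nhds
      simp [hF] at this
      exact hg0 this.symm
    · exfalso
      have h1 : deriv F z₀ = deriv (fun z => (z - z₀) * g z) z₀ := by
        apply Filter.EventuallyEq.deriv_eq
        filter_upwards [hFg] with z hz
        rw [hz]; simp
      have h2 : HasDerivAt (fun z => (z - z₀) * g z) (1 * g z₀ + (z₀ - z₀) * deriv g z₀) z₀ :=
        ((hasDerivAt_id z₀).sub_const z₀).mul hg.differentiableAt.hasDerivAt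
      rw [h2.deriv, hFd] at h1
      simp at h1
      exact hg0 h1.symm
    · omega
  have hm0 : m ≠ 0 := by omega
  obtain ⟨c, hc⟩ : ∃ c : ℂ, c ^ m = g z₀ := ⟨g z₀ ^ ((m : ℂ)⁻¹), Complex.cpow_nat_inv_pow _ hm0⟩
  have hc0 : c ≠ 0 := by
    rintro rfl
    rw [zero_pow hm0] at hc
    exact hg0 hc.symm
  set h : ℂ → ℂ := fun z => Complex.exp (Complex.log (g z / g z₀) / m) * c with hh
  have hha : AnalyticAt ℂ h z₀ := by
    refine AnalyticAt.mul (AnalyticAt.cexp ?_) analyticAt_const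
    refine AnalyticAt.div ?_ analyticAt_const (by exact_mod_cast hm0)
    refine AnalyticAt.clog (hg.div analyticAt_const hg0) ?_
    rw [div_self hg0]
    exact Complex.one_mem_slitPlane
  have hh0 : h z₀ ≠ 0 := by
    simp [hh, hc0]
  have hhm : ∀ᶠ z in 𝓝 z₀, h z ^ m = g z := by
    filter_upwards [hg.continuousAt.eventually_ne hg0] with z hz
    simp only [hh]
    rw [mul_pow, hc, ← Complex.exp_nat_mul, mul_div_cancel₀ _ (by exact_mod_cast hm0),
      Complex.exp_log (div_ne_zero hz hg0), div_mul_cancel₀ _ hg0]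
  set ζ : ℂ → ℂ := fun z => (z - z₀) * h z with hζ
  have hζa : AnalyticAt ℂ ζ z₀ := (analyticAt_id.sub analyticAt_const).mul hha
  have hζ0 : ζ z₀ = 0 := by simp [hζ]
  have hζd : HasDerivAt ζ (h z₀) z₀ := by
    have h2 : HasDerivAt (fun z => (z - z₀) * h z) (1 * h z₀ + (z₀ - z₀) * deriv h z₀) z₀ :=
        ((hasDerivAt_id z₀).sub_const z₀).mul hha.differentiableAt.hasDerivAt
    simpa using h2
  have hζs : HasStrictDerivAt ζ (h z₀) z₀ := by
    have := hζa.hasStrictDerivAt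
    rwa [hζd.deriv] at this
  have hζm : Filter.map ζ (𝓝 z₀) = 𝓝 0 := by
    have := hζs.map_nhds_eq hh0
    rwa [hζ0] at this
  have hζd' : ∀ᶠ z in 𝓝 z₀, deriv ζ z ≠ 0 := by
    refine hζa.deriv.continuousAt.eventually_ne ?_
    rw [hζd.deriv]; exact hh0
  have hfζ : ∀ᶠ z in 𝓝 z₀, f z = f z₀ + ζ z ^ m := by
    filter_upwards [hFg, hhm] with z h1 h2
    have h3 : f z = f z₀ + F z := by simp [hF]
    rw [h3, h1, hζ, mul_pow, h2, smul_eq_mul]
  have hgood : ∀ᶠ z in 𝓝 z₀, z ∈ N ∧ deriv ζ z ≠ 0 ∧ AnalyticAt ℂ ζ z ∧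
      ∀ᶠ w in 𝓝 z, f w = f z₀ + ζ w ^ m := by
    filter_upwards [hN, hζd', hζa.eventually_analyticAt, hfζ.eventually_nhds] with z h1 h2 h3 h4
    exact ⟨h1, h2, h3, h4⟩
  have himg : ζ '' {z | z ∈ N ∧ deriv ζ z ≠ 0 ∧ AnalyticAt ℂ ζ z ∧
      ∀ᶠ w in 𝓝 z, f w = f z₀ + ζ w ^ m} ∈ 𝓝 (0 : ℂ) := by
    rw [← hζm]
    exact Filter.image_mem_map hgood
  obtain ⟨ε, hε, hεs⟩ := Metric.mem_nhds_iff.1 himg
  have hprim := Complex.isPrimitiveRoot_exp m hm0
  set ω' : ℂ := Complex.exp (2 * Real.pi * Complex.I / m) with hω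
  have hω1 : ω' ≠ 1 := hprim.ne_one (by omega)
  have hωm : ω' ^ m = 1 := hprim.pow_eq_one
  have hωn : ‖ω'‖ = 1 := by
    rw [hω]
    have : (2 * Real.pi * Complex.I / m : ℂ) = ((2 * Real.pi / m : ℝ) : ℂ) * Complex.I := by
      push_cast; ring
    rw [this, Complex.norm_exp_ofReal_mul_I]
  set e : ℂ := ((ε / 2 : ℝ) : ℂ) with he
  have he0 : e ≠ 0 := by
    rw [he]; exact_mod_cast (by positivity : (0 : ℝ) < ε / 2).ne'
  have hen : ‖e‖ = ε / 2 := by
    rw [he, Complex.norm_real, Real.norm_of_nonneg (by positivity)]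
  obtain ⟨z₁, ⟨h11, h12, h13, h14⟩, hz₁⟩ := hεs (show e ∈ ball (0 : ℂ) ε by
    rw [mem_ball, dist_zero_right, hen]; linarith)
  obtain ⟨z₂, ⟨h21, h22, h23, h24⟩, hz₂⟩ := hεs (show ω' * e ∈ ball (0 : ℂ) ε by
    rw [mem_ball, dist_zero_right, norm_mul, hωn, hen]; linarith)
  have key : ∀ z, deriv ζ z ≠ 0 → AnalyticAt ℂ ζ z → (∀ᶠ w in 𝓝 z, f w = f z₀ + ζ w ^ m) →
      ζ z ≠ 0 → deriv f z ≠ 0 := by
    intro z h1 h2 h3 h4
    have h5 : HasDerivAt (fun w => f z₀ + ζ w ^ m) (m * ζ z ^ (m - 1) * deriv ζ z) z :=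
      (h2.differentiableAt.hasDerivAt.pow m).const_add _
    have h6 : deriv f z = deriv (fun w => f z₀ + ζ w ^ m) z := Filter.EventuallyEq.deriv_eq h3
    rw [h6, h5.deriv]
    refine mul_ne_zero (mul_ne_zero ?_ (pow_ne_zero _ h4)) h1
    exact_mod_cast hm0
  refine ⟨z₁, h11, z₂, h21, ?_, ?_, key z₁ h12 h13 h14 (by rw [hz₁]; exact he0),
    key z₂ h22 h23 h24 (by
      rw [hz₂]; exact mul_ne_zero (by
        intro h0
        rw [h0, norm_zero] at hωn
        exact zero_ne_one hωn) he0)⟩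
  · rintro rfl
    rw [hz₁] at hz₂
    apply hω1
    have : (ω' - 1) * e = 0 := by rw [sub_mul, one_mul, ← hz₂, sub_self]
    rcases mul_eq_zero.1 this with h | h
    · exact sub_eq_zero.1 h
    · exact absurd h he0
  · rw [h14.self_of_nhds, h24.self_of_nhds, hz₁, hz₂, mul_pow, hωm, one_mul]

end Vale.Agent.P281.H737.Gen
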