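import Vale.Agent.P281.H150.Gen.Img
import Vale.Agent.P281.H64.Gen.SpecN

/-! P281, block V13a (helper737): subsets of countable unions of closed sets which are locally
contained in submanifolds of codimension two. -/

open Set Filter Metric Vale.Agent.P281 Vale.Agent.P281.J Vale.Agent.P281.H713
open Vale.Agent.P281.H64 (Cm)
open Vale.Agent.P281.H150.Gen
open scoped Topology ContDiff Manifold

noncomputable section

namespace Vale.Agent.P281.H737.Gen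

section

variable {E : Type} [NormedAddCommGroup E] [NormedSpace ℂ E] {Y : Type} [TopologicalSpace Y]
  [ChartedSpace E Y]

variable (E) in
/-- `H` is closed, and locally contained in submanifolds of codimension two. -/
def IsThin2 (H : Set Y) : Prop :=
  IsClosed H ∧ ∀ x ∈ H, ∃ g : Fin 2 → Y → ℂ,
    (∀ a, HolAt E (g a) x) ∧ (Function.Surjective fun (ξ : E) (a : Fin 2) => dif E (g a) x ξ) ∧
    ∀ᶠ z in 𝓝 x, z ∈ H → ∀ a, g a z = 0

theorem thin2_empty : IsThin2 E (∅ : Set Y) := ⟨isClosed_empty, fun _ h => absurd h (by simp)⟩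

variable (E) in
/-- `S` is contained in a countable union of sets `IsThin2`. -/
def SThin2 (S : Set Y) : Prop :=
  ∃ H : ℕ → Set Y, (∀ k, IsThin2 E (H k)) ∧ S ⊆ ⋃ k, H k

theorem SThin2.mono {S T : Set Y} (hT : SThin2 E T) (h : S ⊆ T) : SThin2 E S := by
  obtain ⟨H, h1, h2⟩ := hT
  exact ⟨H, h1, h.trans h2⟩

theorem SThin2.of_thin {S T : Set Y} (hT : IsThin2 E T) (h : S ⊆ T) : SThin2 E S :=
  ⟨fun _ => T, fun _ => hT, h.trans (subset_iUnion (fun _ : ℕ => T) 0)⟩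

theorem SThin2.empty : SThin2 E (∅ : Set Y) := SThin2.of_thin thin2_empty subset_rfl

theorem SThin2.iUnion {ι : Type} [Countable ι] {S : ι → Set Y} (h : ∀ i, SThin2 E (S i)) :
    SThin2 E (⋃ i, S i) := by
  rcases isEmpty_or_nonempty ι with hι | hι
  · rw [iUnion_of_empty]; exact SThin2.empty
  · choose H h1 h2 using h
    obtain ⟨e, he⟩ := exists_surjective_nat (ι × ℕ)
    refine ⟨fun k => H (e k).1 (e k).2, fun k => h1 _ _, ?_⟩
    intro y hy
    obtain ⟨i, hi⟩ := mem_iUnion.1 hy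
    obtain ⟨k, hk⟩ := mem_iUnion.1 (h2 i hi)
    obtain ⟨m, hm⟩ := he (i, k)
    exact mem_iUnion.2 ⟨m, by simpa [hm] using hk⟩

theorem SThin2.union {S T : Set Y} (hS : SThin2 E S) (hT : SThin2 E T) : SThin2 E (S ∪ T) := by
  rw [union_eq_iUnion]
  exact SThin2.iUnion (fun b => by cases b <;> assumption)

/-- Lindelöf: `SThin2` of an image is a local property of the source. -/
theorem SThin2.image_of_local {V : Type} [TopologicalSpace V] [SecondCountableTopology V]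
    {F : V → Y} {T : Set V} (h : ∀ z ∈ T, ∃ N ∈ 𝓝 z, SThin2 E (F '' (T ∩ N))) :
    SThin2 E (F '' T) := by
  choose! N hN hS using h
  obtain ⟨t, ht, htc, hcov⟩ := TopologicalSpace.countable_cover_nhdsWithin
    (f := N) (s := T) (fun x hx => mem_nhdsWithin_of_mem_nhds (hN x hx))
  have := htc.to_subtype
  refine (SThin2.iUnion (S := fun x : t => F '' (T ∩ N x)) (fun x => hS x (ht x.2))).mono ?_
  rintro _ ⟨z, hz, rfl⟩
  obtain ⟨x, hx, hzx⟩ := mem_iUnion₂.1 (hcov hz)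
  exact mem_iUnion.2 ⟨⟨x, hx⟩, z, ⟨hz, hzx⟩, rfl⟩

end

section

/-- A surjective linear map to `ℂ²`. -/
theorem exists_surj_two {K : Type} [AddCommGroup K] [Module ℂ K] [FiniteDimensional ℂ K]
    (h : 2 ≤ Module.finrank ℂ K) : ∃ ℓ : K →ₗ[ℂ] (Fin 2 → ℂ), Function.Surjective ℓ := by
  let b := Module.finBasis ℂ K
  refine ⟨LinearMap.pi fun a => (b.coord (Fin.castLE h a)), ?_⟩
  intro c
  refine ⟨∑ a, c a • b (Fin.castLE h a), ?_⟩
  funext a
  simp only [LinearMap.pi_apply, map_sum, map_smul, Module.Basis.coord_apply,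
    Module.Basis.repr_self, smul_eq_mul]
  rw [Finset.sum_eq_single a]
  · simp
  · intro a' _ ha'
    rw [Finsupp.single_apply, if_neg, mul_zero]
    intro hcon
    exact ha' (Fin.castLE_injective h hcon)
  · intro ha
    exact absurd (Finset.mem_univ a) ha

/-- A compact piece of the graph `w = G (π w)`, with `dim ker π ≥ 2`. -/
theorem thin2_graph {E R : Type} [NormedAddCommGroup E] [NormedSpace ℂ E]
    [FiniteDimensional ℂ E] [NormedAddCommGroup R] [NormedSpace ℂ R]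
    {K : Set E} (hK : IsCompact K) {π : E →L[ℂ] R} {G : R → E}
    (hπ : 2 ≤ Module.finrank ℂ (LinearMap.ker (π : E →ₗ[ℂ] R)))
    (hG : ∀ w ∈ K, AnalyticAt ℂ G (π w)) (h : ∀ w ∈ K, w = G (π w)) : IsThin2 E K := by
  refine ⟨hK.isClosed, fun y hy => ?_⟩
  obtain ⟨ℓ₀, hℓ₀⟩ := exists_surj_two hπ
  obtain ⟨ℓ₁, hℓ₁⟩ := LinearMap.exists_extend ℓ₀
  let ℓ : E →L[ℂ] (Fin 2 → ℂ) := LinearMap.toContinuousLinearMap ℓ₁
  have hℓ : ∀ c : Fin 2 → ℂ, ∃ ξ : E, π ξ = 0 ∧ ℓ ξ = c := by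
    intro c
    obtain ⟨k, hk⟩ := hℓ₀ c
    refine ⟨k, by simp, ?_⟩
    rw [← hk, ← hℓ₁]
    rfl
  let ℓa : Fin 2 → E →L[ℂ] ℂ := fun a =>
    (ContinuousLinearMap.proj (R := ℂ) (φ := fun _ : Fin 2 => ℂ) a).comp ℓ
  have hGd : HasFDerivAt (fun w => w - G (π w))
      (ContinuousLinearMap.id ℂ E - (fderiv ℂ G (π y)).comp π) y := by
    refine (hasFDerivAt_id y).sub ?_
    exact (hG y hy).differentiableAt.hasFDerivAt.comp y π.hasFDerivAt
  refine ⟨fun a w => ℓa a (w - G (π w)), ?_, ?_, ?_⟩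
  · intro a
    apply holAt_of_analyticAt
    have h1 : AnalyticAt ℂ (fun w => w - G (π w)) y :=
      analyticAt_id.sub (AnalyticAt.fun_comp (g := G) (f := π) (hG y hy) (π.analyticAt y))
    exact ((ℓa a).analyticAt _).fun_comp h1
  · intro c
    obtain ⟨ξ, h1, h2⟩ := hℓ c
    refine ⟨ξ, ?_⟩
    funext a
    have h3 : HasFDerivAt (fun w => ℓa a (w - G (π w)))
        ((ℓa a).comp (ContinuousLinearMap.id ℂ E - (fderiv ℂ G (π y)).comp π)) y :=
      (ℓa a).hasFDerivAt.comp y hGd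
    show (mfderiv 𝓘(ℂ, E) 𝓘(ℂ, ℂ) (fun w => ℓa a (w - G (π w))) y) ξ = c a
    rw [mfderiv_eq_fderiv, h3.fderiv]
    show ℓ (ξ - fderiv ℂ G (π y) (π ξ)) a = c a
    rw [h1, map_zero, sub_zero, h2]
  · filter_upwards with w hw a
    show ℓa a (w - G (π w)) = 0
    rw [← h w hw, sub_self, map_zero]

end

section

variable {E' : Type} [NormedAddCommGroup E'] [NormedSpace ℂ E'] [FiniteDimensional ℂ E']
  {Y : Type} [TopologicalSpace Y] [T2Space Y] [ChartedSpace E' Y] [IsManifold 𝓘(ℂ, E') ω Y]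

/-- Thin sets of a chart give thin sets of the manifold. -/
theorem thin2_chart (y₀ : Y) {B : Set E'} (hB : IsCompact B) (hBt : B ⊆ (chartAt E' y₀).target)
    {H : Set E'} (hH : IsThin2 E' H) :
    IsThin2 E' ((chartAt E' y₀).symm '' (H ∩ B)) := by
  set ψ := chartAt E' y₀ with hψ
  have hn : (ω : WithTop ℕ∞) ≠ 0 := by simp
  have hc : IsCompact (ψ.symm '' (H ∩ B)) :=
    (hB.inter_left hH.1).image_of_continuousOn fun w hw =>
      (ψ.continuousOn_symm.mono hBt w hw.2).mono inter_subset_right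
  refine ⟨hc.isClosed, ?_⟩
  rintro _ ⟨w, hw, rfl⟩
  have hwt : w ∈ ψ.target := hBt hw.2
  obtain ⟨g, hg, hd, hs⟩ := hH.2 w hw.1
  have hψt : Tendsto ψ (𝓝 (ψ.symm w)) (𝓝 w) := by
    have := (ψ.continuousAt (ψ.map_target hwt)).tendsto
    rwa [ψ.right_inv hwt] at this
  have hψm : ContMDiffAt 𝓘(ℂ, E') 𝓘(ℂ, E') ω ψ (ψ.symm w) := holAt_chart (ψ.map_target hwt)
  refine ⟨fun a y => g a (ψ y), ?_, ?_, ?_⟩
  · intro a
    have h1 : ContMDiffAt 𝓘(ℂ, E') 𝓘(ℂ, ℂ) ω (g a) (ψ (ψ.symm w)) := by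
      rw [ψ.right_inv hwt]; exact hg a
    exact ContMDiffAt.comp (ψ.symm w) h1 hψm
  · intro c
    obtain ⟨ξ, hξ⟩ := hd c
    obtain ⟨η, hη⟩ := (mdifferentiable_chart (I := 𝓘(ℂ, E')) y₀).mfderiv_surjective
      (ψ.map_target hwt) ξ
    refine ⟨η, ?_⟩
    funext a
    have h1 : ContMDiffAt 𝓘(ℂ, E') 𝓘(ℂ, ℂ) ω (g a) (ψ (ψ.symm w)) := by
      rw [ψ.right_inv hwt]; exact hg a
    have h2 : mfderiv 𝓘(ℂ, E') 𝓘(ℂ, ℂ) (fun y => g a (ψ y)) (ψ.symm w) =
        (mfderiv 𝓘(ℂ, E') 𝓘(ℂ, ℂ) (g a) (ψ (ψ.symm w))).comp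
          (mfderiv 𝓘(ℂ, E') 𝓘(ℂ, E') ψ (ψ.symm w)) :=
      mfderiv_comp (ψ.symm w) (h1.mdifferentiableAt hn) (hψm.mdifferentiableAt hn)
    have h3 := congrFun hξ a
    show (mfderiv 𝓘(ℂ, E') 𝓘(ℂ, ℂ) (fun y => g a (ψ y)) (ψ.symm w)) η = c a
    rw [h2]
    show (mfderiv 𝓘(ℂ, E') 𝓘(ℂ, ℂ) (g a) (ψ (ψ.symm w)))
      (mfderiv 𝓘(ℂ, E') 𝓘(ℂ, E') ψ (ψ.symm w) η) = c a
    rw [hη, ψ.right_inv hwt]
    exact h3
  · filter_upwards [hψt.eventually hs] with y hy hyB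
    obtain ⟨w', hw', rfl⟩ := hyB
    rw [ψ.right_inv (hBt hw'.2)] at hy ⊢
    exact hy hw'.1

end

end Vale.Agent.P281.H737.Gen
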